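import Vale.Agent.P246.T.Top
import Vale.Agent.P246.R2.H712.MXN
import Vale.Agent.P246.R2.H712.A1N

/-! # P246-T: the topological form, with the Euler characteristic -/

namespace Vale.Agent.P246.H712

open Vale.Agent.P246 Vale.Agent.P246.T Vale.Agent.P246.H429 Topology Metric Set

theorem cellChi_eq (X : Type) [TopologicalSpace X] [T2Space X]
    [CWComplex (univ : Set X)] (N : ℕ) (hN : ∀ n, N ≤ n → ncell X n = 0) :
    cellChi X = ∑ i ∈ Finset.range N, (-1 : ℤ) ^ i * ncell X i := by
  unfold cellChi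
  refine finsum_eq_sum_of_support_subset _ fun n hn => ?_
  rw [Function.mem_support] at hn
  rw [Finset.coe_range, mem_Iio]
  by_contra h
  have h0 := hN n (not_lt.1 h)
  unfold ncell at h0
  rw [h0] at hn
  simp at hn

theorem asmN (hYD : SpecYD) : SpecTopChi := by
  intro G _ e0 hG X _ _ _ _ _ x he hD hchi
  have hCWB := CWB.main
  have hAct := AC.main
  have hA2 := A2.main
  have hWC := WC.main
  have hYC := YC.main
  have hCY : SpecCY' := CY.main
  have hYP := YP.main
  have hYH := YH.main MS.main CL.main fund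
  have hEW := EWb.main
  have hRV := RV.main
  have hRH := relHur
  have hDN := DN.main
  have hCV := CV.main
  have hWh := WH.main
  obtain ⟨hB, hcpt, hlpc⟩ := hCWB X
  have hpc : PathConnectedSpace X := PathConnectedSpace.of_locallyPathConnectedSpace
  obtain ⟨E, _, _, _, p, hsc, hp, hH, hH3⟩ := hAct G X x he hD
  obtain ⟨P, hP, hc⟩ := modelN MS.main CL.main fund hp (builtN_univ X)
  obtain ⟨N, hN⟩ := ncell_bdd X
  obtain ⟨Pr, ψ0, ψ1, ψ2, hψ⟩ := a1N G e0 hG X E p hp hH hH3 P hP (ncell X) N hc hN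
    (by rw [← cellChi_eq X N hN]; exact hchi)
  clear hc
  obtain ⟨e⟩ : Nonempty E := inferInstance
  have hα : ∀ i, Nonempty (Path e (Pr.x i • e)) := fun i => PathConnectedSpace.joined _ _
  let α : ∀ i, Path e (Pr.x i • e) := fun i => (hα i).some
  obtain ⟨W⟩ := hWC
  obtain ⟨c, hc⟩ := hA2 G E Pr ψ0 ψ1 ψ2 hψ e (α)
  have hc0 := (hc c fun j => ⟨0, by simp⟩).1
  have hrel : ∀ j, wval Pr.x (Pr.r j).toWord = 1 := by
    intro j
    have h1 : Pr.r j ∈ (FreeGroup.lift Pr.x).ker := by
      rw [Pr.ker_eq]; exact Subgroup.subset_normalClosure ⟨j, rfl⟩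
    have h2 : ∀ w : List (Fin Pr.gens × Bool), wval Pr.x w = FreeGroup.lift Pr.x (FreeGroup.mk w) := by
      intro w
      induction w with
      | nil => rw [wval]; exact (map_one (FreeGroup.lift Pr.x)).symm
      | cons l w ih =>
        rw [wval, ih, lval]
        simp only [FreeGroup.lift_mk, List.map_cons, List.prod_cons]
        cases l.2 <;> rfl
    rw [h2, FreeGroup.mk_toWord]
    exact h1
  have hδ : ∀ j, ∃ δ : C(Dk 2, E), BdryWord Pr.x α (Pr.r j).toWord δ ∧ ∃ t : Ch 3 E,
      push δ 2 zeta2 + ksx 2 e + W.cor G E Pr.gens Pr.x e α (Pr.r j).toWord = c j + bd 2 t :=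
    fun j => hYD W G E _ Pr.x e α _ (hrel j) (c j) (hc0 j)
  choose δ hδ1 hδ2 using hδ
  obtain ⟨y, hy, hye, hya, hyb⟩ := hYC G X E p hp Pr e α δ hδ1
  obtain ⟨hpW, hscW, ⟨hX⟩, f, hf, hfg, h, hfh, hhf⟩ := hEW G X E p hp Pr.gens Pr.rels
  have := hscW hsc
  have hbuilt := hCY G (X × WW Pr.gens Pr.rels) (EW G E Pr.gens Pr.rels) (pW G Pr.gens Pr.rels p)
    hpW Pr y hy
  have hscY := hYP G (X × WW Pr.gens Pr.rels) (EW G E Pr.gens Pr.rels) (pW G Pr.gens Pr.rels p)
    hpW Pr y hy
  have hQ := hYH W G (X × WW Pr.gens Pr.rels) (EW G E Pr.gens Pr.rels) (pW G Pr.gens Pr.rels p)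
    hpW Pr y hy
  have hQE := (hc (fun j => push f 2 (y.zface W j)) (fun j => by
    obtain ⟨t, ht⟩ := hδ2 j
    refine ⟨t, ?_⟩
    rw [← ht, PresCx.zface, map_add, map_add]
    congr 1
    · congr 1
      · rw [← push_comp]
        congr 1
        congr 1
        ext z
        rw [ContinuousMap.comp_apply, hf, hyb]
      · rw [ksx, push_single, ksx]
        congr 1
        ext z
        simp [hf, hye]
    · refine W.nat G _ E f hfg _ _ _ _ _ _ ?_ ?_ _
      · rw [hf, hye]
      · intro i t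
        rw [hf, hya])).2
  have hHZ : ∀ k, HZero univ (pW G Pr.gens Pr.rels p ⁻¹' y.Y) k := by
    refine hRV G E (EW G E Pr.gens Pr.rels) f hfg ⟨h, hfh, hhf⟩ Pr _ _ _ _ _ _ _ hQ hQE ?_ ?_ ?_
    · intro v
      rw [phi0, phi0, LinearMap.toSpanSingleton_apply, LinearMap.toSpanSingleton_apply,
        SC.un_smul, SC.un_smul, SC.un_mk, SC.un_mk, Finsupp.sum, Finsupp.sum, map_sum]
      refine Finset.sum_congr rfl fun g _ => ?_
      rw [map_smul, ksx, ksx, push_single, push_single, push_single]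
      congr 2
      ext z
      simp only [ContinuousMap.comp_apply, ContinuousMap.const_apply]
      change g • e = f (g • y.e)
      rw [hfg, hf, hye]
    · intro v
      rw [phi1, phi1, push_lmap f hfg]
      congr 3
      funext i
      rw [SC.un_mk, psx, psx, push_single]
      congr 2
      ext z
      simp only [ContinuousMap.comp_apply]
      change α i _ = f (y.a i _)
      rw [hf, hya]
    · intro v
      rw [push_lmap f hfg]
      rfl
  have hL := hRH (EW G E Pr.gens Pr.rels) (pW G Pr.gens Pr.rels p ⁻¹' y.Y) hHZ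
  have hL2 : ∀ n, Lft y.Y n := fun n => hCV _ _ n (hDN G _ _ (pW G Pr.gens Pr.rels p) hpW y.Y n (hL n))
  obtain ⟨hbY, hcw, hfin, hdim⟩ := hbuilt
  refine ⟨y.Y, inferInstance, inferInstance, hcw, hfin, hdim, ?_⟩
  exact hWh X (X × WW Pr.gens Pr.rels) y.Y hB hbY hL2 ⟨hX⟩

/-- ROW T: the topological form, with the Euler characteristic. -/
theorem topChi : SpecTopChi := asmN (YD.main fund)

end Vale.Agent.P246.H712
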